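import Vale.Agent.Lib.P047F.IV.R1

/-!
# P047F IV/R3: the level step (from PartIII)
-/

open Finset

namespace P047F

/-- the conclusion of PartIII for the cube, at niceness level `κ` -/
def Three (n : ℕ) (κ : ℝ) : Prop :=
  ∀ Y : Finset (Fin n → Bool), Nice (monoA (Fin n) (mm n)) Y κ →
    (∀ j, Even (∑ x ∈ Y, monoA (Fin n) (mm n) x j)) →
    ∀ s : (Fin n → Bool) → ℤ, (∀ x, s x = 1 ∨ s x = -1) →
    ∃ z : (Fin n → Bool) → ℤ, (∀ x ∈ Y, z x = 1 ∨ z x = -1) ∧ (∀ x, x ∉ Y → z x = 0) ∧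
      (∀ j, ∑ x, z x * monoA (Fin n) (mm n) x j = 0) ∧
      (∀ Y' : Finset (Fin n → Bool), (∀ x ∈ Y, z x = s x → x ∈ Y') →
        Nice (monoA (Fin n) (mm n)) Y' (κ / 5)) ∧
      (∀ Y' : Finset (Fin n → Bool), (∀ x ∈ Y, z x = - s x → x ∈ Y') →
        Nice (monoA (Fin n) (mm n)) Y' (κ / 5))

/-- the state at level `j`: `q` integer valued of degree `≤ dd n`, `0 ≤ q ≤ 2^j`, odd set nice -/
structure Lev (n : ℕ) (j : ℕ) (κ : ℝ) (q : (Fin n → Bool) → ℤ) : Prop where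
  deg : DegLe (dd n) (fun x => (q x : ℝ))
  nonneg : ∀ x, 0 ≤ q x
  le : ∀ x, q x ≤ 2 ^ j
  nice : ∀ Y : Finset (Fin n → Bool), (∀ x, Odd (q x) → x ∈ Y) →
    Nice (monoA (Fin n) (mm n)) Y κ

theorem R3_two_q {q z u : ℤ} (hu : u = 1 ∨ u = -1) (h1 : Odd q → z = 1 ∨ z = -1)
    (h0 : ¬ Odd q → z = 0) : 2 * ((q + z * u) / 2) = q + z * u := by
  refine Int.mul_ediv_cancel' ?_
  by_cases hq : Odd q
  · obtain ⟨k, hk⟩ := hq
    rcases h1 ⟨k, hk⟩ with rfl | rfl <;> rcases hu with rfl | rfl <;> omega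
  · rw [h0 hq, zero_mul, add_zero]
    rw [Int.not_odd_iff_even] at hq
    exact hq.two_dvd

theorem R3_aux {n : ℕ} (hn : mm n < n) {κ : ℝ} {j : ℕ} {q : (Fin n → Bool) → ℤ}
    (hq : Lev n (j + 1) κ q) (z : (Fin n → Bool) → ℤ)
    (h1 : ∀ x, Odd (q x) → z x = 1 ∨ z x = -1) (h0 : ∀ x, ¬ Odd (q x) → z x = 0)
    (hz : ∀ j, ∑ x, z x * monoA (Fin n) (mm n) x j = 0)
    (hN : ∀ Y' : Finset (Fin n → Bool),
      (∀ x, Odd (q x) → z x = par x * (if q x % 4 = 1 then 1 else -1) → x ∈ Y') →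
        Nice (monoA (Fin n) (mm n)) Y' (κ / 5)) :
    ∃ q' : (Fin n → Bool) → ℤ, Lev n j (κ / 5) q' ∧
      S1 (fun x => (q' x : ℝ)) =
        (S1 (fun x => (q x : ℝ)) + S1 (fun x => (z x : ℝ) * (par x : ℝ))) / 2 := by
  have h2 : ∀ x, 2 * ((q x + z x * par x) / 2) = q x + z x * par x := fun x =>
    R3_two_q (par_odd x) (h1 x) (h0 x)
  have hr : (fun x => (((q x + z x * par x) / 2 : ℤ) : ℝ)) =
      fun x => (1 / 2 : ℝ) * ((q x : ℝ) + (z x : ℝ) * (par x : ℝ)) := by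
    funext x
    have h3 := congrArg (fun t : ℤ => (t : ℝ)) (h2 x)
    push_cast at h3
    push_cast
    linarith
  have hd : DegLe (dd n) (fun x => (z x : ℝ) * (par x : ℝ)) := by
    have h3 := (dual_iff (ι := Fin n) (m := mm n) (by rw [Fintype.card_fin]; exact hn)
      (fun x => (z x : ℝ))).1 (fun S hS => by
        have h4 := hz ⟨S, hS⟩
        have h5 := congrArg (fun t : ℤ => (t : ℝ)) h4
        push_cast at h5
        simpa [monoA] using h5)
    rw [Fintype.card_fin] at h3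
    exact h3
  refine ⟨fun x => (q x + z x * par x) / 2, ⟨?_, ?_, ?_, ?_⟩, ?_⟩
  · rw [hr]
    exact DegLe.smul _ (DegLe.add hq.deg hd)
  · intro x
    have h3 := hq.nonneg x
    have h4 := h2 x
    show 0 ≤ (q x + z x * par x) / 2
    by_cases hx : Odd (q x)
    · obtain ⟨k, hk⟩ := hx
      rcases h1 x ⟨k, hk⟩ with h | h <;> rcases par_odd x with h' | h' <;>
        rw [h, h'] at h4 ⊢ <;> omega
    · rw [h0 x hx] at h4 ⊢
      omega
  · intro x
    have h3 := hq.le x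
    have h4 := h2 x
    have h5 : (2 : ℤ) ^ (j + 1) = 2 * 2 ^ j := by ring
    rw [h5] at h3
    show (q x + z x * par x) / 2 ≤ 2 ^ j
    by_cases hx : Odd (q x)
    · obtain ⟨k, hk⟩ := hx
      rcases h1 x ⟨k, hk⟩ with h | h <;> rcases par_odd x with h' | h' <;>
        rw [h, h'] at h4 ⊢ <;> omega
    · rw [h0 x hx] at h4 ⊢
      omega
  · intro Y' hY'
    refine hN Y' fun x hx hzx => hY' x ?_
    have h4 := h2 x
    have h5 : z x * par x = if q x % 4 = 1 then 1 else -1 := by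
      rw [hzx, mul_comm, ← mul_assoc, par_sq, one_mul]
    show Odd ((q x + z x * par x) / 2)
    rw [h5] at h4 ⊢
    obtain ⟨k, hk⟩ := hx
    rw [Int.odd_iff]
    split_ifs at h4 ⊢ with h6 <;> omega
  · rw [hr, S1_smul, S1_add]
    ring

/-- Level step. `Y = {q odd}` (parity hypothesis: `even_sum_of_degLe`).
`s x = par x * (if q x % 4 = 1 then 1 else -1)`. Take `z` from `Three`; for both signs `σ = ±1`
the function `q' = (q + σ z par)/2` is integer valued, of degree `≤ dd n` (`dual_iff`),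
`0 ≤ q' ≤ 2^j` (as `q` is odd and hence between `1` and `2^(j+1)-1` where `z ≠ 0`), and for
`x ∈ Y`: `q' x` is odd iff `q x + σ z x par x ≡ 2 mod 4` iff `σ z x par x = (1 if q ≡ 1, -1 if q ≡ 3)`
iff `σ z x = s x`. Choose `σ` with `σ S1 (z par) ≥ 0`. -/
theorem level_step {n : ℕ} (hn : mm n < n) {κ : ℝ} (h3 : Three n κ) {j : ℕ}
    {q : (Fin n → Bool) → ℤ} (hq : Lev n (j + 1) κ q) :
    ∃ q' : (Fin n → Bool) → ℤ, Lev n j (κ / 5) q' ∧
      S1 (fun x => (q x : ℝ)) / 2 ≤ S1 (fun x => (q' x : ℝ)) := by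
  classical
  set Y : Finset (Fin n → Bool) := Finset.univ.filter fun x => Odd (q x) with hY
  have hmem : ∀ x, x ∈ Y ↔ Odd (q x) := fun x => by simp [hY]
  have hnice := hq.nice Y fun x hx => (hmem x).2 hx
  have heven : ∀ j, Even (∑ x ∈ Y, monoA (Fin n) (mm n) x j) := by
    rintro ⟨S, hS⟩
    have h4 := even_sum_of_degLe hn q hq.deg S hS
    have h5 : ∑ x ∈ Y, monoA (Fin n) (mm n) x ⟨S, hS⟩ =
        ∑ x, (if Odd (q x) then mono S x else 0) := by
      rw [hY, Finset.sum_filter]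
      rfl
    rw [h5]
    have h6 : Even ((∑ x, q x * mono S x) - ∑ x, (if Odd (q x) then mono S x else 0)) := by
      rw [← Finset.sum_sub_distrib]
      refine Finset.even_sum _ fun x _ => ?_
      split_ifs with h
      · obtain ⟨k, hk⟩ := h
        rw [hk]
        exact ⟨k * mono S x, by ring⟩
      · rw [Int.not_odd_iff_even] at h
        rw [sub_zero]
        exact h.mul_right _
    have h7 := h4.sub h6
    rwa [sub_sub_cancel] at h7
  obtain ⟨z, hz1, hz0, hz, hN1, hN2⟩ := h3 Y hnice heven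
    (fun x => par x * (if q x % 4 = 1 then 1 else -1)) (by
      intro x
      rcases par_odd x with h | h <;> rw [h] <;> split_ifs <;> simp)
  have hz1' : ∀ x, Odd (q x) → z x = 1 ∨ z x = -1 := fun x hx => hz1 x ((hmem x).2 hx)
  have hz0' : ∀ x, ¬ Odd (q x) → z x = 0 := fun x hx => hz0 x fun h => hx ((hmem x).1 h)
  obtain ⟨q1, hq1, hs1⟩ := R3_aux hn hq z hz1' hz0' hz fun Y' hY' =>
    hN1 Y' fun x hx hzx => hY' x ((hmem x).1 hx) hzx
  obtain ⟨q2, hq2, hs2⟩ := R3_aux hn hq (fun x => -z x)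
    (fun x hx => by rcases hz1' x hx with h | h <;> simp [h])
    (fun x hx => by simp [hz0' x hx])
    (fun j => by
      have h4 := hz j
      simp only [neg_mul, Finset.sum_neg_distrib, h4, neg_zero]) fun Y' hY' =>
    hN2 Y' fun x hx hzx => hY' x ((hmem x).1 hx) (by rw [hzx, neg_neg])
  have hneg : S1 (fun x => (((-z x : ℤ)) : ℝ) * (par x : ℝ)) =
      - S1 (fun x => (z x : ℝ) * (par x : ℝ)) := by
    have h4 : (fun x => (((-z x : ℤ)) : ℝ) * (par x : ℝ)) =
        fun x => (-1 : ℝ) * ((z x : ℝ) * (par x : ℝ)) := by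
      funext x
      push_cast
      ring
    rw [h4, S1_smul]
    ring
  rcases le_total 0 (S1 (fun x => (z x : ℝ) * (par x : ℝ))) with h | h
  · exact ⟨q1, hq1, by rw [hs1]; linarith⟩
  · exact ⟨q2, hq2, by rw [hs2, hneg]; linarith⟩

/-- descend `j` levels -/
theorem descend {n : ℕ} (hn : mm n < n) (j : ℕ) {κ : ℝ}
    (h3 : ∀ i < j, Three n (κ / 5 ^ i)) {q : (Fin n → Bool) → ℤ} (hq : Lev n j κ q) :
    ∃ q' : (Fin n → Bool) → ℤ, Lev n 0 (κ / 5 ^ j) q' ∧
      S1 (fun x => (q x : ℝ)) / 2 ^ j ≤ S1 (fun x => (q' x : ℝ)) := by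
  induction j generalizing κ q with
  | zero => exact ⟨q, by simpa using hq, by simp⟩
  | succ j ih =>
    obtain ⟨q1, hq1, hs1⟩ := level_step hn (by simpa using h3 0 (Nat.succ_pos j)) hq
    obtain ⟨q2, hq2, hs2⟩ := ih (κ := κ / 5) (fun i hi => by
      have h4 := h3 (i + 1) (by omega)
      have h5 : κ / 5 / 5 ^ i = κ / 5 ^ (i + 1) := by
        rw [pow_succ]
        field_simp
      rw [h5]
      exact h4) hq1
    refine ⟨q2, ?_, ?_⟩
    · have h5 : κ / 5 / 5 ^ j = κ / 5 ^ (j + 1) := by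
        rw [pow_succ]
        field_simp
      rwa [h5] at hq2
    · refine le_trans ?_ hs2
      have h6 : S1 (fun x => (q x : ℝ)) / 2 ^ (j + 1) = S1 (fun x => (q x : ℝ)) / 2 / 2 ^ j := by
        rw [pow_succ]
        field_simp
      rw [h6]
      exact div_le_div_of_nonneg_right hs1 (by positivity)

/-- the full set is `1`-nice, more precisely every set containing all points -/
theorem nice_all {n : ℕ} (Y : Finset (Fin n → Bool)) (hY : ∀ x, x ∈ Y) :
    Nice (monoA (Fin n) (mm n)) Y 1 := by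
  intro c
  have h1 : Y = Finset.univ := Finset.eq_univ_iff_forall.2 hY
  rw [h1, one_mul]

end P047F
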