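import Vale.Agent.Lib.P047F.IV.R2
import Vale.Agent.Lib.P047F.IV.R3

/-!
# P047F Part IV: PartI, PartII, PartIII imply PartIV
-/

open Finset Filter

namespace P047F

/-- `mm n < n` for `n ≥ 1` -/
theorem mm_lt {n : ℕ} (hn : 1 ≤ n) : mm n < n := by
  unfold mm
  omega

/-- the finite statement: from `Two n` and `Three n (5^{-i})`, `i ≤ J`.
`p = (1 + (1 - 2 δ) F)/2` with `δ = 3/2^J`; `q` from `dyadic_round`; `0 ≤ q ≤ 2^J`; hmm: to have
`q ≤ 2^J - 1` take `δ = 4/2^J`: then `2^J p ∈ [4, 2^J - 4]`, so `1 ≤ q ≤ 2^J - 1`.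
`q̃ = 2 q + 1` satisfies `Lev n (J+1) 1 q̃` (all values odd, `nice_all`). `descend` gives `q₀` with
values in `{0,1}`, `S1 q₀ ≥ S1 q̃ / 2^(J+1) = S1 q / 2^J`, `f = 2 q₀ - 1`,
`S1 f = 2 S1 q₀ ≥ 2 S1 q/2^J ≥ 2 S1 p - (6/2^J) √n = (1-8/2^J) S1 F - (6/2^J) √n ≥ S1 F - (14/2^J) √n`
(`abs_S1_le`). -/
theorem finite_round {n : ℕ} (hn : 1 ≤ n) (J : ℕ) (hJ : 4 ≤ J) (h2 : Two n)
    (h3 : ∀ i < J + 1, Three n (1 / 5 ^ i)) (F : (Fin n → Bool) → ℝ)
    (hF : ∀ x, |F x| ≤ 1) (hd : DegLe (dd n) F) :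
    ∃ f : (Fin n → Bool) → ℝ, IsBool f ∧ DegLe (dd n) f ∧
      S1 F - 14 / 2 ^ J * Real.sqrt n ≤ S1 f := by
  have hmn := mm_lt hn
  have hP : (16 : ℝ) ≤ 2 ^ J := by
    calc (16 : ℝ) = 2 ^ 4 := by norm_num
      _ ≤ 2 ^ J := pow_le_pow_right₀ (by norm_num) hJ
  have hP0 : (0 : ℝ) < 2 ^ J := by positivity
  -- the start
  have hpd : DegLe (dd n) (fun x => (1 - 8 / 2 ^ J) / 2 * F x + 1 / 2) :=
    (hd.smul ((1 - 8 / 2 ^ J) / 2)).add (DegLe.const _ _)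
  obtain ⟨q, hqd, hq⟩ := dyadic_round hmn h2 J _ hpd
  -- bounds
  have hpJ : ∀ x, 4 ≤ 2 ^ J * ((1 - 8 / 2 ^ J) / 2 * F x + 1 / 2) ∧
      2 ^ J * ((1 - 8 / 2 ^ J) / 2 * F x + 1 / 2) ≤ 2 ^ J - 4 := by
    intro x
    have e1 : (2 : ℝ) ^ J * ((1 - 8 / 2 ^ J) / 2 * F x + 1 / 2) =
        (2 ^ J - 8) / 2 * F x + 2 ^ J / 2 := by
      field_simp
    rw [e1]
    obtain ⟨h4, h5⟩ := abs_le.1 (hF x)
    constructor <;> nlinarith
  have hq1 : ∀ x, 1 ≤ q x := by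
    intro x
    have h4 := (abs_le.1 (hq x)).1
    have h5 := (hpJ x).1
    have h6 : (1 : ℝ) ≤ q x := by linarith
    exact_mod_cast h6
  have hq2 : ∀ x, q x ≤ 2 ^ J - 1 := by
    intro x
    have h4 := (abs_le.1 (hq x)).2
    have h5 := (hpJ x).2
    have h6 : (q x : ℝ) ≤ 2 ^ J - 1 := by linarith
    exact_mod_cast h6
  -- the top level
  have hlev : Lev n (J + 1) 1 (fun x => 2 * q x + 1) := by
    refine ⟨?_, fun x => ?_, fun x => ?_, fun Y hY => ?_⟩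
    · have h4 := (hqd.smul 2).add (DegLe.const (dd n) 1)
      have e1 : (fun x => ((2 * q x + 1 : ℤ) : ℝ)) = fun x => 2 * (q x : ℝ) + 1 := by
        funext x
        push_cast
        ring
      rw [e1]
      exact h4
    · have := hq1 x
      omega
    · have h4 := hq2 x
      have h5 : (2 : ℤ) ^ (J + 1) = 2 * 2 ^ J := by rw [pow_succ]; ring
      rw [h5]
      linarith
    · refine nice_all Y fun x => hY x ?_
      exact ⟨q x, rfl⟩
  obtain ⟨q0, hq0, hS⟩ := descend hmn (J + 1) (κ := 1) h3 hlev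
  have h01 : ∀ x, q0 x = 0 ∨ q0 x = 1 := by
    intro x
    have h4 := hq0.nonneg x
    have h5 := hq0.le x
    rw [pow_zero] at h5
    omega
  refine ⟨fun x => 2 * (q0 x : ℝ) + (-1), ?_, ?_, ?_⟩
  · intro x
    rcases h01 x with h | h
    · right
      simp only [h]
      norm_num
    · left
      simp only [h]
      norm_num
  · exact (hq0.deg.smul 2).add (DegLe.const _ _)
  · have hf : S1 (fun x => 2 * (q0 x : ℝ) + (-1)) = 2 * S1 (fun x => (q0 x : ℝ)) := by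
      rw [S1_add (fun x => 2 * (q0 x : ℝ)) (fun _ => (-1 : ℝ)), S1_smul, S1_const, add_zero]
    have hqt : S1 (fun x => ((2 * q x + 1 : ℤ) : ℝ)) = 2 * S1 (fun x => (q x : ℝ)) := by
      have e1 : (fun x => ((2 * q x + 1 : ℤ) : ℝ)) = fun x => 2 * (q x : ℝ) + 1 := by
        funext x
        push_cast
        ring
      rw [e1, S1_add (fun x => 2 * (q x : ℝ)) (fun _ => (1 : ℝ)), S1_smul, S1_const, add_zero]
    have hqe : S1 (fun x => (q x : ℝ)) = 2 ^ J * ((1 - 8 / 2 ^ J) / 2 * S1 F) +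
        S1 (fun x => (q x : ℝ) - 2 ^ J * ((1 - 8 / 2 ^ J) / 2 * F x + 1 / 2)) := by
      have e1 : (fun x => (q x : ℝ)) = fun x =>
          2 ^ J * ((1 - 8 / 2 ^ J) / 2 * F x + 1 / 2) +
          ((q x : ℝ) - 2 ^ J * ((1 - 8 / 2 ^ J) / 2 * F x + 1 / 2)) := by
        funext x
        ring
      have e2 := S1_add (fun x : Fin n → Bool => 2 ^ J * ((1 - 8 / 2 ^ J) / 2 * F x + 1 / 2))
        (fun x => (q x : ℝ) - 2 ^ J * ((1 - 8 / 2 ^ J) / 2 * F x + 1 / 2))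
      rw [← e1] at e2
      rw [e2, S1_smul, S1_add (fun x => (1 - 8 / 2 ^ J) / 2 * F x) (fun _ => (1 / 2 : ℝ)),
        S1_smul, S1_const, add_zero]
    have herr := abs_S1_le (fun x => (q x : ℝ) - 2 ^ J * ((1 - 8 / 2 ^ J) / 2 * F x + 1 / 2)) 3 hq
    have hSF := abs_S1_le F 1 hF
    rw [Fintype.card_fin] at herr hSF
    rw [hqt] at hS
    rw [hf]
    set e := S1 (fun x => (q x : ℝ) - 2 ^ J * ((1 - 8 / 2 ^ J) / 2 * F x + 1 / 2)) with he
    have h6 : 2 * S1 (fun x => (q x : ℝ)) / 2 ^ (J + 1) =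
        (1 - 8 / 2 ^ J) / 2 * S1 F + e / 2 ^ J := by
      rw [hqe, pow_succ]
      field_simp
    rw [h6] at hS
    have h7 : -(3 * Real.sqrt n) ≤ e := (abs_le.1 herr).1
    have h8 : S1 F ≤ Real.sqrt n := by
      have := (abs_le.1 hSF).2
      linarith
    have h9 : -(3 * Real.sqrt n) / 2 ^ J ≤ e / 2 ^ J :=
      div_le_div_of_nonneg_right h7 hP0.le
    have h10 : 8 / 2 ^ J * S1 F ≤ 8 / 2 ^ J * Real.sqrt n :=
      mul_le_mul_of_nonneg_left h8 (by positivity)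
    have e3 : 2 * ((1 - 8 / 2 ^ J) / 2 * S1 F) = S1 F - 8 / 2 ^ J * S1 F := by ring
    have e4 : 14 / 2 ^ J * Real.sqrt n =
        8 / 2 ^ J * Real.sqrt n + 2 * ((3 * Real.sqrt n) / 2 ^ J) := by ring
    have e5 : -(3 * Real.sqrt n) / 2 ^ J = -((3 * Real.sqrt n) / 2 ^ J) := by ring
    rw [e5] at h9
    rw [e4]
    linarith

theorem partIV (hI : PartI) (hII : PartII) (hIII : PartIII) : PartIV := by
  intro η hη
  obtain ⟨J, hJ4, hJ⟩ : ∃ J : ℕ, 4 ≤ J ∧ 14 / 2 ^ J ≤ η := by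
    have h1 : Tendsto (fun J : ℕ => (14 : ℝ) / 2 ^ J) atTop (nhds 0) := by
      refine Tendsto.div_atTop tendsto_const_nhds ?_
      exact tendsto_pow_atTop_atTop_of_one_lt (by norm_num)
    have h2 := (h1.eventually (ge_mem_nhds hη)).and (eventually_ge_atTop 4)
    obtain ⟨J, hJ1, hJ2⟩ := h2.exists
    exact ⟨J, hJ2, hJ1⟩
  obtain ⟨n1, hn1⟩ := eventually_atTop.1 hI
  obtain ⟨n2, hn2⟩ := hII
  have hk : ∀ i : ℕ, 0 < (1 : ℝ) / 5 ^ i ∧ (1 : ℝ) / 5 ^ i ≤ 1 := by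
    intro i
    refine ⟨by positivity, ?_⟩
    rw [div_le_one (by positivity)]
    exact one_le_pow₀ (by norm_num)
  choose N hN using fun i : ℕ => hIII (1 / 5 ^ i) (hk i).1 (hk i).2
  refine ⟨max (max n1 n2) (max 1 ((range (J + 1)).sup N)), fun n hn F hF hd => ?_⟩
  have hn1' : n1 ≤ n := (le_max_left _ _).trans ((le_max_left _ _).trans hn)
  have hn2' : n2 ≤ n := (le_max_right _ _).trans ((le_max_left _ _).trans hn)
  have hn3' : 1 ≤ n := (le_max_left _ _).trans ((le_max_right _ _).trans hn)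
  have hn4' : (range (J + 1)).sup N ≤ n := (le_max_right _ _).trans ((le_max_right _ _).trans hn)
  have hcard : Fintype.card (Fin n → Bool) = 2 ^ n := by
    rw [Fintype.card_fun, Fintype.card_bool, Fintype.card_fin]
  have hG := hn1 n hn1'
  have h2 : Two n := hn2 n hn2' (Fin n → Bool) (Idx (Fin n) (mm n)) _ hcard hG
  have h3 : ∀ i < J + 1, Three n (1 / 5 ^ i) := by
    intro i hi
    exact hN i n ((Finset.le_sup (mem_range.2 hi)).trans hn4') (Fin n → Bool)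
      (Idx (Fin n) (mm n)) _ hcard hG
  obtain ⟨f, hf1, hf2, hf3⟩ := finite_round hn3' J hJ4 h2 h3 F hF hd
  refine ⟨f, hf1, hf2, le_trans ?_ hf3⟩
  have h4 : 14 / 2 ^ J * Real.sqrt n ≤ η * Real.sqrt n :=
    mul_le_mul_of_nonneg_right hJ (Real.sqrt_nonneg _)
  linarith

end P047F
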