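import Vale.Agent.Lib.P047F.Defs

/-!
# P047F IV/R0b: `DegLe` and `S1` are linear; the bound `|S1 g| ≤ B √n`
-/

open Finset

namespace P047F

variable {ι : Type} [Fintype ι] [DecidableEq ι]

/-- flip one coordinate -/
def r0b_flip (i : ι) (x : ι → Bool) : ι → Bool := Function.update x i (!x i)

theorem r0b_flip_flip (i : ι) (x : ι → Bool) : r0b_flip i (r0b_flip i x) = x := by
  funext j
  unfold r0b_flip
  by_cases h : j = i
  · subst h
    simp
  · simp [Function.update_of_ne h]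

theorem r0b_flip_ne {i j : ι} (h : j ≠ i) (x : ι → Bool) : r0b_flip i x j = x j := by
  unfold r0b_flip
  rw [Function.update_of_ne h]

theorem r0b_flip_self (i : ι) (x : ι → Bool) : r0b_flip i x i = !x i := by
  unfold r0b_flip
  rw [Function.update_self]

theorem r0b_sum_zero (i : ι) (g : (ι → Bool) → ℝ) (hg : ∀ x, g (r0b_flip i x) = - g x) :
    ∑ x, g x = 0 := by
  have h1 : ∑ x, g x = ∑ x, g (r0b_flip i x) := by
    refine (Fintype.sum_equiv (Function.Involutive.toPerm (r0b_flip i) (r0b_flip_flip i))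
      (fun x => g (r0b_flip i x)) g (fun x => rfl)).symm
  have h2 : ∑ x, g (r0b_flip i x) = - ∑ x, g x := by
    rw [← Finset.sum_neg_distrib]
    exact Finset.sum_congr rfl (fun x _ => hg x)
  linarith

theorem r0b_chi_flip {i : ι} {T : Finset ι} (hi : i ∈ T) (x : ι → Bool) :
    chi T (r0b_flip i x) = - chi T x := by
  unfold chi
  rw [← Finset.mul_prod_erase T _ hi, ← Finset.mul_prod_erase T _ hi]
  have h1 : ∏ j ∈ T.erase i, (if r0b_flip i x j = true then (-1 : ℤ) else 1) =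
      ∏ j ∈ T.erase i, (if x j = true then (-1 : ℤ) else 1) := by
    apply Finset.prod_congr rfl
    intro j hj
    rw [r0b_flip_ne (Finset.ne_of_mem_erase hj)]
  rw [h1, r0b_flip_self]
  cases x i <;> simp

theorem r0b_chi_flip_not {i : ι} {T : Finset ι} (hi : i ∉ T) (x : ι → Bool) :
    chi T (r0b_flip i x) = chi T x := by
  unfold chi
  apply Finset.prod_congr rfl
  intro j hj
  have hji : j ≠ i := fun h => hi (by rw [← h]; exact hj)
  rw [r0b_flip_ne hji]

theorem r0b_mono_flip_not {i : ι} {S : Finset ι} (hi : i ∉ S) (x : ι → Bool) :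
    mono S (r0b_flip i x) = mono S x := by
  unfold mono
  congr 1
  apply propext
  constructor
  · intro h j hj
    have hji : j ≠ i := fun h => hi (by rw [← h]; exact hj)
    have := h j hj
    rwa [r0b_flip_ne hji] at this
  · intro h j hj
    have hji : j ≠ i := fun h => hi (by rw [← h]; exact hj)
    rw [r0b_flip_ne hji]
    exact h j hj

theorem DegLe.add {d : ℕ} {f g : (ι → Bool) → ℝ} (hf : DegLe d f) (hg : DegLe d g) :
    DegLe d (fun x => f x + g x) := by
  intro T hT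
  simp only [add_mul, Finset.sum_add_distrib, hf T hT, hg T hT, add_zero]

theorem DegLe.smul {d : ℕ} {f : (ι → Bool) → ℝ} (c : ℝ) (hf : DegLe d f) :
    DegLe d (fun x => c * f x) := by
  intro T hT
  simp only [mul_assoc, ← Finset.mul_sum, hf T hT, mul_zero]

/-- an AND monomial of degree `≤ d` has degree `≤ d` -/
theorem degLe_mono {d : ℕ} (S : Finset ι) (hS : S.card ≤ d) :
    DegLe d (fun x : ι → Bool => (mono S x : ℝ)) := by
  intro T hT
  obtain ⟨i, hiT, hiS⟩ : ∃ i ∈ T, i ∉ S := by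
    by_contra hcon
    push Not at hcon
    have := Finset.card_le_card hcon
    omega
  apply r0b_sum_zero i
  intro x
  show ((mono S (r0b_flip i x) : ℤ) : ℝ) * ((chi T (r0b_flip i x) : ℤ) : ℝ) =
    -(((mono S x : ℤ) : ℝ) * ((chi T x : ℤ) : ℝ))
  rw [r0b_chi_flip hiT, r0b_mono_flip_not hiS]
  push_cast
  ring

theorem DegLe.const (d : ℕ) (c : ℝ) : DegLe d (fun _ : ι → Bool => c) := by
  have h := (degLe_mono (ι := ι) (d := d) ∅ (by simp)).smul c
  have e : (fun x : ι → Bool => c * ((mono ∅ x : ℤ) : ℝ)) = fun _ => c := by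
    funext x
    simp [mono]
  rwa [e] at h

theorem DegLe.mono_deg {d d' : ℕ} (h : d ≤ d') {f : (ι → Bool) → ℝ} (hf : DegLe d f) :
    DegLe d' f := fun T hT => hf T (lt_of_le_of_lt h hT)

theorem S1_add (f g : (ι → Bool) → ℝ) : S1 (fun x => f x + g x) = S1 f + S1 g := by
  unfold S1
  simp only [add_mul, Finset.sum_add_distrib, add_div]

theorem S1_smul (c : ℝ) (f : (ι → Bool) → ℝ) : S1 (fun x => c * f x) = c * S1 f := by
  unfold S1
  simp only [mul_assoc, ← Finset.mul_sum, mul_div_assoc]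

theorem r0b_sum_chi_single (i : ι) : ∑ x : ι → Bool, ((chi {i} x : ℤ) : ℝ) = 0 := by
  apply r0b_sum_zero i
  intro x
  rw [r0b_chi_flip (Finset.mem_singleton_self i)]
  push_cast
  ring

theorem S1_const (c : ℝ) : S1 (fun _ : ι → Bool => c) = 0 := by
  unfold S1
  rw [← Finset.mul_sum, Finset.sum_comm]
  simp only [r0b_sum_chi_single, Finset.sum_const_zero, mul_zero, zero_div]

theorem r0b_chi_sq (T : Finset ι) (x : ι → Bool) : chi T x * chi T x = 1 := by
  unfold chi
  rw [← Finset.prod_mul_distrib]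
  apply Finset.prod_eq_one
  intro i _
  split <;> norm_num

theorem r0b_orth (i j : ι) :
    ∑ x : ι → Bool, ((chi {i} x : ℤ) : ℝ) * ((chi {j} x : ℤ) : ℝ) =
      if i = j then (2 : ℝ) ^ Fintype.card ι else 0 := by
  by_cases h : i = j
  · subst h
    rw [if_pos rfl]
    have h1 : ∀ x : ι → Bool, ((chi {i} x : ℤ) : ℝ) * ((chi {i} x : ℤ) : ℝ) = 1 := by
      intro x
      exact_mod_cast r0b_chi_sq {i} x
    rw [Finset.sum_congr rfl (fun x _ => h1 x)]
    simp
  · rw [if_neg h]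
    apply r0b_sum_zero i
    intro x
    rw [r0b_chi_flip (Finset.mem_singleton_self i),
      r0b_chi_flip_not (i := i) (T := {j}) (by simpa using h)]
    push_cast
    ring

theorem r0b_sum_sq :
    ∑ x : ι → Bool, (∑ i : ι, ((chi {i} x : ℤ) : ℝ)) ^ 2 =
      (Fintype.card ι : ℝ) * 2 ^ Fintype.card ι := by
  have h1 : ∀ x : ι → Bool, (∑ i : ι, ((chi {i} x : ℤ) : ℝ)) ^ 2 =
      ∑ i : ι, ∑ j : ι, ((chi {i} x : ℤ) : ℝ) * ((chi {j} x : ℤ) : ℝ) := by
    intro x
    rw [sq, Finset.sum_mul_sum]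
  rw [Finset.sum_congr rfl (fun x _ => h1 x), Finset.sum_comm]
  have h2 : ∀ i : ι, ∑ x : ι → Bool, ∑ j : ι, ((chi {i} x : ℤ) : ℝ) * ((chi {j} x : ℤ) : ℝ) =
      2 ^ Fintype.card ι := by
    intro i
    rw [Finset.sum_comm]
    simp only [r0b_orth]
    simp
  rw [Finset.sum_congr rfl (fun i _ => h2 i)]
  simp

/-- Cauchy-Schwarz: `|E[g s]| ≤ sup|g| · sqrt (E s^2) = sup|g| sqrt n` -/
theorem abs_S1_le (f : (ι → Bool) → ℝ) (B : ℝ) (hB : ∀ x, |f x| ≤ B) :
    |S1 f| ≤ B * Real.sqrt (Fintype.card ι) := by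
  have hB0 : 0 ≤ B := (abs_nonneg _).trans (hB (fun _ => true))
  set n := Fintype.card ι with hn
  have hp : (0 : ℝ) < 2 ^ n := by positivity
  unfold S1
  rw [abs_div, abs_of_pos hp, div_le_iff₀ hp]
  set s : (ι → Bool) → ℝ := fun x => ∑ i : ι, ((chi {i} x : ℤ) : ℝ) with hs
  have h1 : (∑ x, f x * s x) ^ 2 ≤ (∑ x, f x ^ 2) * ∑ x, s x ^ 2 :=
    Finset.sum_mul_sq_le_sq_mul_sq _ _ _
  have h2 : ∑ x, s x ^ 2 = (n : ℝ) * 2 ^ n := r0b_sum_sq
  have h3 : ∑ x, f x ^ 2 ≤ B ^ 2 * 2 ^ n := by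
    calc ∑ x, f x ^ 2 ≤ ∑ _x : ι → Bool, B ^ 2 := by
          apply Finset.sum_le_sum
          intro x _
          rw [← sq_abs]
          exact pow_le_pow_left₀ (abs_nonneg _) (hB x) 2
      _ = B ^ 2 * 2 ^ n := by
          rw [Finset.sum_const, Finset.card_univ, Fintype.card_fun, Fintype.card_bool, nsmul_eq_mul]
          push_cast
          ring
  have h4 : (∑ x, f x * s x) ^ 2 ≤ (B * Real.sqrt n * 2 ^ n) ^ 2 := by
    have h5 : (B * Real.sqrt n * 2 ^ n) ^ 2 = (B ^ 2 * 2 ^ n) * ((n : ℝ) * 2 ^ n) := by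
      rw [mul_pow, mul_pow, Real.sq_sqrt (Nat.cast_nonneg n)]
      ring
    rw [h5]
    refine h1.trans ?_
    rw [h2]
    exact mul_le_mul_of_nonneg_right h3 (by positivity)
  have h6 : 0 ≤ B * Real.sqrt n * 2 ^ n := by positivity
  exact abs_le_of_sq_le_sq h4 h6

theorem r0b_chi_expand (T : Finset ι) (x : ι → Bool) :
    ((chi T x : ℤ) : ℝ) = ∑ S ∈ T.powerset, (-2 : ℝ) ^ S.card * ((mono S x : ℤ) : ℝ) := by
  have h1 : ((chi T x : ℤ) : ℝ) = ∏ i ∈ T, (1 + (-2) * (if x i = true then (1 : ℝ) else 0)) := by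
    unfold chi
    push_cast
    apply Finset.prod_congr rfl
    intro i _
    split <;> norm_num
  rw [h1, Finset.prod_one_add]
  apply Finset.sum_congr rfl
  intro S _
  rw [Finset.prod_mul_distrib, Finset.prod_const]
  congr 1
  unfold mono
  rw [Finset.prod_boole]
  by_cases h : ∀ i ∈ S, x i = true
  · rw [if_pos h, if_pos h]
    norm_num
  · rw [if_neg h, if_neg h]
    norm_num

theorem r0b_fourier (x y : ι → Bool) :
    ∑ T : Finset ι, ((chi T x : ℤ) : ℝ) * ((chi T y : ℤ) : ℝ) =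
      if x = y then (2 : ℝ) ^ Fintype.card ι else 0 := by
  have h1 : ∀ T : Finset ι, ((chi T x : ℤ) : ℝ) * ((chi T y : ℤ) : ℝ) =
      ∏ i ∈ T, (if x i = y i then (1 : ℝ) else -1) := by
    intro T
    unfold chi
    push_cast
    rw [← Finset.prod_mul_distrib]
    apply Finset.prod_congr rfl
    intro i _
    cases x i <;> cases y i <;> norm_num
  rw [Finset.sum_congr rfl (fun T _ => h1 T)]
  have h2 : ∑ T : Finset ι, ∏ i ∈ T, (if x i = y i then (1 : ℝ) else -1) =
      ∏ i : ι, (1 + (if x i = y i then (1 : ℝ) else -1)) := by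
    rw [Finset.prod_one_add, Finset.powerset_univ]
  rw [h2]
  by_cases h : x = y
  · subst h
    simp
    norm_num
  · rw [if_neg h]
    obtain ⟨i, hi⟩ := Function.ne_iff.1 h
    apply Finset.prod_eq_zero (Finset.mem_univ i)
    rw [if_neg hi]
    ring

theorem r0b_inversion (f : (ι → Bool) → ℝ) (x : ι → Bool) :
    f x = ∑ T : Finset ι, ((∑ y, f y * ((chi T y : ℤ) : ℝ)) / 2 ^ Fintype.card ι) *
      ((chi T x : ℤ) : ℝ) := by
  have hp : (2 : ℝ) ^ Fintype.card ι ≠ 0 := by positivity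
  have h1 : ∑ T : Finset ι, ((∑ y, f y * ((chi T y : ℤ) : ℝ)) / 2 ^ Fintype.card ι) *
      ((chi T x : ℤ) : ℝ) =
      (∑ y, f y * ∑ T : Finset ι, ((chi T x : ℤ) : ℝ) * ((chi T y : ℤ) : ℝ)) /
        2 ^ Fintype.card ι := by
    simp only [Finset.mul_sum]
    rw [Finset.sum_comm, Finset.sum_div]
    apply Finset.sum_congr rfl
    intro T _
    rw [Finset.sum_div, Finset.sum_mul, Finset.sum_div]
    apply Finset.sum_congr rfl
    intro y _
    ring
  rw [h1]
  simp only [r0b_fourier]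
  rw [Finset.sum_eq_single x]
  · rw [if_pos rfl]
    field_simp
  · intro y _ hy
    rw [if_neg (Ne.symm hy), mul_zero]
  · intro h
    exact absurd (Finset.mem_univ x) h

/-- every function of degree `≤ d` is a real combination of the AND monomials of degree `≤ d`
(Fourier inversion and `chi_eq_sum_mono`-type expansion) -/
theorem exists_coeff {d : ℕ} {f : (ι → Bool) → ℝ} (hf : DegLe d f) :
    ∃ c : Finset ι → ℝ, (∀ S, d < S.card → c S = 0) ∧
      ∀ x, f x = ∑ S : Finset ι, c S * (mono S x : ℝ) := by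
  refine ⟨fun S => ∑ T : Finset ι, if S ⊆ T then
    ((∑ y, f y * ((chi T y : ℤ) : ℝ)) / 2 ^ Fintype.card ι) * (-2 : ℝ) ^ S.card else 0, ?_, ?_⟩
  · intro S hS
    apply Finset.sum_eq_zero
    intro T _
    split
    · rename_i hST
      rw [hf T (lt_of_lt_of_le hS (Finset.card_le_card hST))]
      simp
    · rfl
  · intro x
    rw [r0b_inversion f x]
    simp only [Finset.sum_mul]
    rw [Finset.sum_comm]
    apply Finset.sum_congr rfl
    intro T _
    rw [r0b_chi_expand T x, Finset.mul_sum]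
    have h1 : ∀ S : Finset ι, (if S ⊆ T then
        ((∑ y, f y * ((chi T y : ℤ) : ℝ)) / 2 ^ Fintype.card ι) * (-2 : ℝ) ^ S.card else 0) *
          ((mono S x : ℤ) : ℝ) =
        if S ∈ T.powerset then ((∑ y, f y * ((chi T y : ℤ) : ℝ)) / 2 ^ Fintype.card ι) *
          ((-2 : ℝ) ^ S.card * ((mono S x : ℤ) : ℝ)) else 0 := by
      intro S
      by_cases hST : S ⊆ T
      · rw [if_pos hST, if_pos (Finset.mem_powerset.2 hST)]
        ring
      · rw [if_neg hST, if_neg (fun h => hST (Finset.mem_powerset.1 h)), zero_mul]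
    rw [Finset.sum_congr rfl (fun S _ => h1 S), Finset.sum_ite_mem, Finset.univ_inter]

end P047F
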