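import Vale.Agent.Lib.P047F.Defs

/-!
# P047F IV/R0: duality between `deg ≤ n-m-1` and orthogonality to AND monomials of degree `≤ m`
-/

open Finset

namespace P047F

variable {ι : Type} [Fintype ι] [DecidableEq ι]

/-- the parity function -/
def par (x : ι → Bool) : ℤ := chi Finset.univ x

omit [Fintype ι] [DecidableEq ι] in
private theorem R0_chi_sq (T : Finset ι) (x : ι → Bool) : chi T x * chi T x = 1 := by
  unfold chi
  rw [← Finset.prod_mul_distrib]
  refine Finset.prod_eq_one fun i _ => ?_
  split_ifs <;> norm_num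

theorem par_sq (x : ι → Bool) : par x * par x = 1 := R0_chi_sq _ x

theorem par_odd (x : ι → Bool) : par x = 1 ∨ par x = -1 :=
  mul_self_eq_one_iff.1 (par_sq x)

theorem chi_mul_par (T : Finset ι) (x : ι → Bool) : chi T x * par x = chi Tᶜ x := by
  have h : par x = chi T x * chi Tᶜ x := by
    unfold par chi
    exact (Finset.prod_mul_prod_compl T _).symm
  rw [h, ← mul_assoc, R0_chi_sq, one_mul]

private theorem R0_mono (S : Finset ι) (x : ι → Bool) :
    mono S x = ∏ i ∈ S, (if x i = true then (1 : ℤ) else 0) := by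
  rw [Finset.prod_ite_zero, Finset.prod_const_one]
  unfold mono
  by_cases h : ∀ i ∈ S, x i = true
  · rw [if_pos h, if_pos h]
  · rw [if_neg h, if_neg h]

/-- `χ_U = ∏ (1 - 2 x_i) = Σ_{S ⊆ U} (-2)^{|S|} x_S` -/
theorem chi_eq_sum_mono (U : Finset ι) (x : ι → Bool) :
    chi U x = ∑ S ∈ U.powerset, (-2 : ℤ) ^ S.card * mono S x := by
  have h : chi U x = ∏ i ∈ U, (1 + (-2) * (if x i = true then (1 : ℤ) else 0)) := by
    unfold chi
    refine Finset.prod_congr rfl fun i _ => ?_
    split_ifs <;> norm_num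
  rw [h, Finset.prod_one_add]
  refine Finset.sum_congr rfl fun S _ => ?_
  rw [Finset.prod_mul_distrib, Finset.prod_const, R0_mono]

/-- `x_S = 2^{-|S|} Σ_{U ⊆ S} (-1)^{|U|} χ_U` -/
theorem mono_eq_sum_chi (S : Finset ι) (x : ι → Bool) :
    (2 : ℤ) ^ S.card * mono S x = ∑ U ∈ S.powerset, (-1 : ℤ) ^ U.card * chi U x := by
  have h : (2 : ℤ) ^ S.card * mono S x =
      ∏ i ∈ S, (1 + (-1) * (if x i = true then (-1 : ℤ) else 1)) := by
    rw [R0_mono, ← Finset.prod_const, ← Finset.prod_mul_distrib]
    refine Finset.prod_congr rfl fun i _ => ?_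
    split_ifs <;> norm_num
  rw [h, Finset.prod_one_add]
  refine Finset.sum_congr rfl fun U _ => ?_
  rw [Finset.prod_mul_distrib, Finset.prod_const]
  rfl

/-- duality: `z ⊥` AND monomials of degree `≤ m` iff `z · par` has degree `≤ n - m - 1`.
(For `T` with `|T| > n-m-1`: `Σ z par χ_T = Σ z χ_{Tᶜ}` and `|Tᶜ| ≤ m`; use the two expansions.) -/
theorem dual_iff {m : ℕ} (hm : m < Fintype.card ι) (z : (ι → Bool) → ℝ) :
    (∀ S : Finset ι, S.card ≤ m → ∑ x, z x * (mono S x : ℝ) = 0) ↔
      DegLe (Fintype.card ι - m - 1) (fun x => z x * (par x : ℝ)) := by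
  have hpc : ∀ (T : Finset ι) (x : ι → Bool),
      z x * (par x : ℝ) * (chi T x : ℝ) = z x * (chi Tᶜ x : ℝ) := by
    intro T x
    rw [← chi_mul_par]
    push_cast
    ring
  constructor
  · intro h T hT
    have hc : (Tᶜ).card ≤ m := by
      rw [Finset.card_compl]
      omega
    calc ∑ x, z x * (par x : ℝ) * (chi T x : ℝ) = ∑ x, z x * (chi Tᶜ x : ℝ) :=
          Finset.sum_congr rfl fun x _ => hpc T x
      _ = ∑ x, ∑ S ∈ Tᶜ.powerset, (-2 : ℝ) ^ S.card * (z x * (mono S x : ℝ)) := by
          refine Finset.sum_congr rfl fun x _ => ?_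
          rw [chi_eq_sum_mono]
          push_cast
          rw [Finset.mul_sum]
          exact Finset.sum_congr rfl fun S _ => by ring
      _ = ∑ S ∈ Tᶜ.powerset, (-2 : ℝ) ^ S.card * ∑ x, z x * (mono S x : ℝ) := by
          rw [Finset.sum_comm]
          exact Finset.sum_congr rfl fun S _ => by rw [Finset.mul_sum]
      _ = 0 := Finset.sum_eq_zero fun S hS => by
          rw [h S ((Finset.card_le_card (Finset.mem_powerset.1 hS)).trans hc), mul_zero]
  · intro h S hS
    have h2 : (2 : ℝ) ^ S.card * ∑ x, z x * (mono S x : ℝ) = 0 := by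
      calc (2 : ℝ) ^ S.card * ∑ x, z x * (mono S x : ℝ)
          = ∑ x, z x * (((2 : ℤ) ^ S.card * mono S x : ℤ) : ℝ) := by
            rw [Finset.mul_sum]
            refine Finset.sum_congr rfl fun x _ => ?_
            push_cast
            ring
        _ = ∑ x, ∑ U ∈ S.powerset, (-1 : ℝ) ^ U.card * (z x * (chi U x : ℝ)) := by
            refine Finset.sum_congr rfl fun x _ => ?_
            rw [mono_eq_sum_chi]
            push_cast
            rw [Finset.mul_sum]
            exact Finset.sum_congr rfl fun U _ => by ring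
        _ = ∑ U ∈ S.powerset, (-1 : ℝ) ^ U.card * ∑ x, z x * (chi U x : ℝ) := by
            rw [Finset.sum_comm]
            exact Finset.sum_congr rfl fun U _ => by rw [Finset.mul_sum]
        _ = 0 := Finset.sum_eq_zero fun U hU => by
            have hU2 : U.card ≤ m := (Finset.card_le_card (Finset.mem_powerset.1 hU)).trans hS
            have h3 := h Uᶜ (by rw [Finset.card_compl]; omega)
            have h4 : ∑ x, z x * (chi U x : ℝ) = 0 := by
              rw [← h3]
              refine Finset.sum_congr rfl fun x _ => ?_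
              rw [hpc, compl_compl]
            rw [h4, mul_zero]
    exact (mul_eq_zero.1 h2).resolve_left (by positivity)

end P047F
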