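import Vale.Agent.Lib.P047F.Interface
import Vale.Agent.Lib.P047F.IV.R0
import Vale.Agent.Lib.P047F.IV.R0b

/-!
# P047F IV/R1: the halving step with full support (from PartII)
-/

open Finset

namespace P047F

/-- the conclusion of PartII for the cube -/
def Two (n : ℕ) : Prop :=
  ∀ a : (Fin n → Bool) → ℕ, (∀ x, a x = 1 ∨ a x = 2) →
    (∀ j, Even (∑ x, (a x : ℤ) * monoA (Fin n) (mm n) x j)) →
    ∃ z : (Fin n → Bool) → ℤ, (∀ x, |z x| ≤ a x ∧ Even (z x - a x)) ∧
      ∀ j, ∑ x, z x * monoA (Fin n) (mm n) x j = 0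

/-- parity: for an integer valued `q` of degree `≤ dd n` and `|S| ≤ mm n`,
`Σ_{x, q x odd} mono S x` is even: `Σ q par mono S = 0` exactly (`dual_iff` with `z = q·par`,
as `z·par = q`), and modulo `2` one has `par = 1`. -/
theorem even_sum_of_degLe {n : ℕ} (hn : mm n < n) (q : (Fin n → Bool) → ℤ)
    (hq : DegLe (dd n) (fun x => (q x : ℝ))) (S : Finset (Fin n)) (hS : S.card ≤ mm n) :
    Even (∑ x, q x * mono S x) := by
  have hcard : Fintype.card (Fin n) = n := Fintype.card_fin n
  have hdual := dual_iff (ι := Fin n) (m := mm n) (by rw [hcard]; exact hn)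
    (fun x => (q x : ℝ) * (par x : ℝ))
  have h1 : DegLe (Fintype.card (Fin n) - mm n - 1)
      (fun x => ((q x : ℝ) * (par x : ℝ)) * (par x : ℝ)) := by
    rw [hcard]
    have e : (fun x : Fin n → Bool => ((q x : ℝ) * (par x : ℝ)) * (par x : ℝ)) =
        fun x => (q x : ℝ) := by
      funext x
      have h2 : ((par x * par x : ℤ) : ℝ) = 1 := by rw [par_sq]; norm_num
      push_cast at h2
      rw [mul_assoc, h2, mul_one]
    rw [e]
    exact hq
  have h2 := hdual.2 h1 S hS
  have h3 : ∑ x, q x * par x * mono S x = 0 := by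
    have h4 : ((∑ x, q x * par x * mono S x : ℤ) : ℝ) = 0 := by
      push_cast
      exact h2
    exact_mod_cast h4
  have h4 : ∑ x, q x * mono S x = ∑ x, (1 - par x) * (q x * mono S x) := by
    have h5 : ∑ x, (1 - par x) * (q x * mono S x) =
        ∑ x, q x * mono S x - ∑ x, q x * par x * mono S x := by
      rw [← Finset.sum_sub_distrib]
      exact Finset.sum_congr rfl (fun x _ => by ring)
    rw [h5, h3, sub_zero]
  rw [h4]
  refine Finset.even_sum _ (fun x _ => ?_)
  refine Even.mul_right ?_ _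
  rcases par_odd x with h | h
  · rw [h]
    exact ⟨0, by norm_num⟩
  · rw [h]
    exact ⟨1, by norm_num⟩

/-- halving step: `a x = 1` for `q x` odd, `2` for `q x` even; `z` from `Two`; `z' = z · par` has
degree `≤ dd n` by `dual_iff`, `q' = (q + z')/2`. -/
theorem half_step {n : ℕ} (hn : mm n < n) (h2 : Two n) (q : (Fin n → Bool) → ℤ)
    (hq : DegLe (dd n) (fun x => (q x : ℝ))) :
    ∃ q' : (Fin n → Bool) → ℤ, DegLe (dd n) (fun x => (q' x : ℝ)) ∧
      ∀ x, |(q' x : ℝ) - (q x : ℝ) / 2| ≤ 1 := by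
  classical
  have hcard : Fintype.card (Fin n) = n := Fintype.card_fin n
  set a : (Fin n → Bool) → ℕ := fun x => if Odd (q x) then 1 else 2 with ha
  have haq : ∀ x, Even ((a x : ℤ) - q x) := by
    intro x
    by_cases h : Odd (q x)
    · have e : a x = 1 := if_pos h
      rw [e]
      push_cast
      exact Odd.sub_odd odd_one h
    · have e : a x = 2 := if_neg h
      rw [e]
      push_cast
      exact Even.sub even_two (Int.not_odd_iff_even.1 h)
  obtain ⟨z, hz, hz0⟩ := h2 a (fun x => by
    by_cases h : Odd (q x)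
    · exact Or.inl (if_pos h)
    · exact Or.inr (if_neg h)) (fun j => by
    have h3 := even_sum_of_degLe hn q hq j.1 j.2
    have h4 : ∑ x, (a x : ℤ) * monoA (Fin n) (mm n) x j =
        ∑ x, ((a x : ℤ) - q x) * mono j.1 x + ∑ x, q x * mono j.1 x := by
      rw [← Finset.sum_add_distrib]
      refine Finset.sum_congr rfl (fun x _ => ?_)
      unfold monoA
      ring
    rw [h4]
    exact Even.add (Finset.even_sum _ (fun x _ => Even.mul_right (haq x) _)) h3)
  have hdual := dual_iff (ι := Fin n) (m := mm n) (by rw [hcard]; exact hn) (fun x => (z x : ℝ))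
  have h3 : DegLe (dd n) (fun x => (z x : ℝ) * (par x : ℝ)) := by
    have h4 := hdual.1 (fun S hS => by
      have h5 := hz0 ⟨S, hS⟩
      have h6 : ((∑ x, z x * monoA (Fin n) (mm n) x ⟨S, hS⟩ : ℤ) : ℝ) = 0 := by
        rw [h5]
        norm_num
      push_cast at h6
      exact h6)
    rw [hcard] at h4
    exact h4
  have hev : ∀ x, ∃ k : ℤ, q x + z x * par x = 2 * k := by
    intro x
    have h4 := (hz x).2
    have h5 := haq x
    have h6 : Even (z x + q x) := by
      have e : z x + q x = (z x - a x) + ((a x : ℤ) - q x) + 2 * q x := by ring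
      rw [e]
      exact (h4.add h5).add (even_two_mul _)
    rcases par_odd x with h | h
    · obtain ⟨k, hk⟩ := h6
      exact ⟨k, by rw [h]; omega⟩
    · obtain ⟨k, hk⟩ := h6
      exact ⟨k - z x, by rw [h]; omega⟩
  choose q' hq' using hev
  have hq'R : ∀ x, (q' x : ℝ) = 1 / 2 * (q x : ℝ) + 1 / 2 * ((z x : ℝ) * (par x : ℝ)) := by
    intro x
    have h4 : ((q x + z x * par x : ℤ) : ℝ) = ((2 * q' x : ℤ) : ℝ) := by rw [hq' x]
    push_cast at h4
    linarith
  refine ⟨q', ?_, ?_⟩
  · have e : (fun x => (q' x : ℝ)) = fun x => 1 / 2 * (q x : ℝ) +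
        1 / 2 * ((z x : ℝ) * (par x : ℝ)) := funext hq'R
    rw [e]
    exact (hq.smul (1 / 2)).add (h3.smul (1 / 2))
  · intro x
    have h4 : (q' x : ℝ) - (q x : ℝ) / 2 = 1 / 2 * ((z x : ℝ) * (par x : ℝ)) := by
      rw [hq'R x]
      ring
    have h5 : |(par x : ℝ)| = 1 := by
      rcases par_odd x with h | h <;> rw [h] <;> norm_num
    have h6 : |(z x : ℝ)| ≤ 2 := by
      have h7 := (hz x).1
      have h8 : (a x : ℤ) ≤ 2 := by
        by_cases h : Odd (q x)
        · have e : a x = 1 := if_pos h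
          rw [e]
          norm_num
        · have e : a x = 2 := if_neg h
          rw [e]
          norm_num
      have h9 : |z x| ≤ 2 := h7.trans h8
      have h10 : ((|z x| : ℤ) : ℝ) ≤ 2 := by exact_mod_cast h9
      rwa [Int.cast_abs] at h10
    rw [h4, abs_mul, abs_mul, h5, mul_one]
    have h7 : |(1 / 2 : ℝ)| = 1 / 2 := by norm_num
    rw [h7]
    linarith

end P047F
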