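import Vale.Agent.Lib.P047F.IV.R1

/-!
# P047F IV/R2: dyadic approximation by integer valued polynomials
-/

open Finset

namespace P047F

private theorem R2_degLe_sum {n d : ℕ} {β : Type} (s : Finset β)
    (g : β → (Fin n → Bool) → ℝ) (hg : ∀ b ∈ s, DegLe d (g b)) :
    DegLe d (fun x => ∑ b ∈ s, g b x) := by
  intro T hT
  have h1 : ∀ x : Fin n → Bool, (∑ b ∈ s, g b x) * (chi T x : ℝ) =
      ∑ b ∈ s, g b x * (chi T x : ℝ) := fun x => Finset.sum_mul _ _ _
  simp only [h1]
  rw [Finset.sum_comm]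
  exact Finset.sum_eq_zero fun b hb => hg b hb T hT

private theorem R2_mono_nonneg {n : ℕ} (S : Finset (Fin n)) (x : Fin n → Bool) :
    (0 : ℝ) ≤ (mono S x : ℝ) ∧ (mono S x : ℝ) ≤ 1 := by
  unfold mono
  split_ifs <;> norm_num

/-- start: round the coefficients of `2^J' p` (`exists_coeff`); there are at most `2^n` of them, each
error is at most `1/2` and `0 ≤ mono ≤ 1`. -/
theorem start_round {n : ℕ} (p : (Fin n → Bool) → ℝ) (hp : DegLe (dd n) p) :
    ∃ q : (Fin n → Bool) → ℤ, DegLe (dd n) (fun x => (q x : ℝ)) ∧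
      ∀ x, |(q x : ℝ) - p x| ≤ 2 ^ n / 2 := by
  obtain ⟨c, hc0, hc⟩ := exists_coeff hp
  refine ⟨fun x => ∑ S : Finset (Fin n), round (c S) * mono S x, ?_, ?_⟩
  · have h1 : (fun x : Fin n → Bool =>
        ((∑ S : Finset (Fin n), round (c S) * mono S x : ℤ) : ℝ)) =
        fun x => ∑ S : Finset (Fin n), ((round (c S) : ℤ) : ℝ) * (mono S x : ℝ) := by
      funext x
      push_cast
      rfl
    rw [h1]
    refine R2_degLe_sum _ _ fun S _ => ?_
    rcases Nat.lt_or_ge (dd n) S.card with h | h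
    · rw [hc0 S h]
      have h2 : (fun x : Fin n → Bool => ((round (0 : ℝ) : ℤ) : ℝ) * (mono S x : ℝ)) =
          fun _ => (0 : ℝ) := by
        funext x
        simp
      rw [h2]
      exact DegLe.const _ 0
    · exact DegLe.smul _ (degLe_mono S h)
  · intro x
    rw [hc x]
    have h1 : ((∑ S : Finset (Fin n), round (c S) * mono S x : ℤ) : ℝ) -
        ∑ S : Finset (Fin n), c S * (mono S x : ℝ) =
        ∑ S : Finset (Fin n), (((round (c S) : ℤ) : ℝ) - c S) * (mono S x : ℝ) := by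
      push_cast
      rw [← Finset.sum_sub_distrib]
      exact Finset.sum_congr rfl fun S _ => by ring
    rw [h1]
    calc |∑ S : Finset (Fin n), (((round (c S) : ℤ) : ℝ) - c S) * (mono S x : ℝ)|
        ≤ ∑ S : Finset (Fin n), |(((round (c S) : ℤ) : ℝ) - c S) * (mono S x : ℝ)| :=
          Finset.abs_sum_le_sum_abs _ _
      _ ≤ ∑ _S : Finset (Fin n), (1 / 2 : ℝ) := by
          refine Finset.sum_le_sum fun S _ => ?_
          obtain ⟨h2, h3⟩ := R2_mono_nonneg S x
          rw [abs_mul, abs_of_nonneg h2]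
          have h4 : |((round (c S) : ℤ) : ℝ) - c S| ≤ 1 / 2 := by
            rw [abs_sub_comm]
            exact abs_sub_round _
          calc |((round (c S) : ℤ) : ℝ) - c S| * (mono S x : ℝ)
              ≤ (1 / 2) * 1 := mul_le_mul h4 h3 h2 (by norm_num)
            _ = 1 / 2 := by norm_num
      _ = 2 ^ n / 2 := by
          rw [Finset.sum_const, Finset.card_univ, Fintype.card_finset, Fintype.card_fin,
            nsmul_eq_mul]
          push_cast
          ring

/-- iterate `half_step` `i` times: the error is at most `2` -/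
theorem half_iter {n : ℕ} (hn : mm n < n) (h2 : Two n) (i : ℕ) (q : (Fin n → Bool) → ℤ)
    (hq : DegLe (dd n) (fun x => (q x : ℝ))) :
    ∃ q' : (Fin n → Bool) → ℤ, DegLe (dd n) (fun x => (q' x : ℝ)) ∧
      ∀ x, |(q' x : ℝ) - (q x : ℝ) / 2 ^ i| ≤ 2 := by
  induction i with
  | zero => exact ⟨q, hq, fun x => by simp⟩
  | succ i ih =>
      obtain ⟨q1, hq1, h1⟩ := ih
      obtain ⟨q3, hq3, h3⟩ := half_step hn h2 q1 hq1
      refine ⟨q3, hq3, fun x => ?_⟩
      have h4 := abs_le.1 (h1 x)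
      have h5 := abs_le.1 (h3 x)
      have h6 : (q x : ℝ) / 2 ^ (i + 1) = (q x : ℝ) / 2 ^ i / 2 := by
        rw [pow_succ, div_div]
      rw [h6, abs_le]
      constructor <;> linarith [h4.1, h4.2, h5.1, h5.2]

/-- conclusion: for every real `p` of degree `≤ dd n` there is an integer valued `q` of degree
`≤ dd n` with `|q - 2^J p| ≤ 3`. (`start_round` for `2^(J+n) p`, then `half_iter` with `i = n`.) -/
theorem dyadic_round {n : ℕ} (hn : mm n < n) (h2 : Two n) (J : ℕ) (p : (Fin n → Bool) → ℝ)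
    (hp : DegLe (dd n) p) :
    ∃ q : (Fin n → Bool) → ℤ, DegLe (dd n) (fun x => (q x : ℝ)) ∧
      ∀ x, |(q x : ℝ) - 2 ^ J * p x| ≤ 3 := by
  obtain ⟨q0, hq0, h0⟩ := start_round (fun x => 2 ^ (J + n) * p x) (hp.smul (2 ^ (J + n)))
  obtain ⟨q, hq, h1⟩ := half_iter hn h2 n q0 hq0
  refine ⟨q, hq, fun x => ?_⟩
  have hpos : (0 : ℝ) < 2 ^ n := by positivity
  have h3 : |(q0 x : ℝ) / 2 ^ n - 2 ^ J * p x| ≤ 1 / 2 := by
    have h4 : (q0 x : ℝ) / 2 ^ n - 2 ^ J * p x =
        ((q0 x : ℝ) - 2 ^ (J + n) * p x) / 2 ^ n := by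
      rw [pow_add]
      field_simp
    rw [h4, abs_div, abs_of_pos hpos, div_le_iff₀ hpos]
    have h5 := h0 x
    linarith
  have h6 := abs_le.1 h3
  have h7 := abs_le.1 (h1 x)
  rw [abs_le]
  constructor <;> linarith [h6.1, h6.2, h7.1, h7.2]

end P047F
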